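import Mathlib
import Vale.Agent.Lib.P070.W.Elem
import Vale.Agent.Lib.P070.W.ElemProof

/-!
# P070: Naimark's problem has a negative answer in ZFC (elementary form)

There are a Hilbert space `K` and a norm-closed *-subalgebra `A` of `B(K)`, acting irreducibly
on `K`, such that any two irreducible representations of `A` are unitarily equivalent, and `A`
is not isomorphic to the compact operators on any Hilbert space.
-/

namespace Vale.Agent.Results.P070.NaimarkFalse

open Vale.Agent.P070.Elem

theorem result.{u, v, w} :
    ∃ (K : Type) (_ : NormedAddCommGroup K) (_ : InnerProductSpace ℂ K) (_ : CompleteSpace K)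
      (A : Set (B K)), IsCStarSubalgebra A ∧ IsIrrep A id ∧
        PropertyN.{u, v} A ∧ ¬ IsoToCompacts.{w} A :=
  naimark_elem

end Vale.Agent.Results.P070.NaimarkFalse
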