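import Mathlib
import Vale.Agent.Lib.P070.Stmt2
import Vale.Agent.Lib.P070.Top

/-!
# P070: Naimark's problem has a negative answer in ZFC

There is a (unital) C*-algebra all of whose irreducible representations are unitarily equivalent,
and which is not isomorphic to the compact operators on any Hilbert space.
-/

namespace Vale.Agent.Results.P070.NaimarkZFC

open Vale.Agent.P070

theorem result.{u, v, w} :
    ∃ (A : Type) (_ : CStarAlgebra A), HasN.{u, v} A ∧ HasIrreducible.{0} A ∧
      ¬ IsoToCompacts.{w} A :=
  naimark

end Vale.Agent.Results.P070.NaimarkZFC
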