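import Mathlib
import Vale.Agent.Lib.P070.Stmt2
import Vale.Agent.Lib.P070.Top

/-!
# P070: Naimark's problem has a negative answer in ZFC, third formulation
-/

namespace Vale.Agent.Results.P070.OneIrreducible

universe u v w

/-- `B(H)`: the bounded operators on the Hilbert space `H` -/
abbrev B (H : Type u) [NormedAddCommGroup H] [InnerProductSpace ℂ H] : Type u := H →L[ℂ] H

/-- the vector `T x` -/
def ap {H : Type u} [NormedAddCommGroup H] [InnerProductSpace ℂ H] (T : B H) (x : H) : H := T x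

/-- A representation of the C*-algebra `A`: a Hilbert space `H` and a *-homomorphism
`π : A → B(H)`, that is, `π` is linear and multiplicative and `π(a*)` is the adjoint of `π(a)`. -/
structure HilbertRep (A : Type) [NonUnitalCStarAlgebra A] : Type (u + 1) where
  /-- the Hilbert space -/
  H : Type u
  [normed : NormedAddCommGroup H]
  [innerProduct : InnerProductSpace ℂ H]
  [complete : CompleteSpace H]
  /-- the operators `π(a)` -/
  π : A → B H
  map_add : ∀ (a b : A) (x : H), ap (π (a + b)) x = ap (π a) x + ap (π b) x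
  map_smul : ∀ (c : ℂ) (a : A) (x : H), ap (π (c • a)) x = c • ap (π a) x
  map_mul : ∀ (a b : A) (x : H), ap (π (a * b)) x = ap (π a) (ap (π b) x)
  map_star : ∀ (a : A) (x y : H), inner ℂ (ap (π a) x) y = inner ℂ x (ap (π (star a)) y)

attribute [instance] HilbertRep.normed HilbertRep.innerProduct HilbertRep.complete

namespace HilbertRep

variable {A : Type} [NonUnitalCStarAlgebra A]

/-- `π ≠ 0`, and `H` has no closed `π(A)`-invariant subspace other than `0` and `H`. -/
def Irreducible (ρ : HilbertRep.{u} A) : Prop :=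
  (∃ (a : A) (x : ρ.H), ap (ρ.π a) x ≠ 0) ∧
    ∀ E : Submodule ℂ ρ.H, IsClosed (E : Set ρ.H) → (∀ (a : A), ∀ x ∈ E, ap (ρ.π a) x ∈ E) →
      E = ⊥ ∨ E = ⊤

/-- Unitary equivalence: `U π(a) = σ(a) U` for all `a ∈ A`, for some unitary `U : H_π → H_σ`. -/
def Equivalent (ρ : HilbertRep.{u} A) (σ : HilbertRep.{v} A) : Prop :=
  ∃ U : ρ.H ≃ₗᵢ[ℂ] σ.H, ∀ (a : A) (x : ρ.H), U (ap (ρ.π a) x) = ap (σ.π a) (U x)

/-- `π` is an isomorphism of `A` onto the algebra `K(H)` of all compact operators on `H`. -/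
def IsoOntoCompacts (ρ : HilbertRep.{u} A) : Prop :=
  Function.Injective ρ.π ∧ ∀ T : B ρ.H, IsCompactOperator (ap T) ↔ ∃ a : A, ρ.π a = T

theorem exists_hom (ρ : HilbertRep.{u} A) :
    ∃ τ : A →⋆ₙₐ[ℂ] (ρ.H →L[ℂ] ρ.H), ∀ a, τ a = ρ.π a := by
  refine ⟨
    { toFun := ρ.π
      map_smul' := fun c a => ContinuousLinearMap.ext fun x => ρ.map_smul c a x
      map_zero' := ContinuousLinearMap.ext fun x => ?_
      map_add' := fun a b => ContinuousLinearMap.ext fun x => ρ.map_add a b x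
      map_mul' := fun a b => ContinuousLinearMap.ext fun x => ρ.map_mul a b x
      map_star' := fun a => ?_ }, fun _ => rfl⟩
  · have := ρ.map_smul 0 0 x
    rw [zero_smul, zero_smul] at this
    exact this
  · rw [ContinuousLinearMap.star_eq_adjoint, ContinuousLinearMap.eq_adjoint_iff]
    intro x y
    have h := ρ.map_star (star a) x y
    rw [star_star] at h
    exact h

end HilbertRep

/-- Property (N): `A ≠ 0` and any two irreducible representations of `A` (on Hilbert spaces in the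
universes `u` and `v`) are unitarily equivalent. -/
def PropertyN (A : Type) [NonUnitalCStarAlgebra A] : Prop :=
  (∃ a : A, a ≠ 0) ∧ ∀ (ρ : HilbertRep.{u} A) (σ : HilbertRep.{v} A),
    ρ.Irreducible → σ.Irreducible → ρ.Equivalent σ

/-- There is a (unital) C*-algebra `A` with property (N), with an irreducible representation, and
not isomorphic to `K(H)` for any Hilbert space `H`. -/
theorem result : ∃ (A : Type) (_ : CStarAlgebra A), PropertyN.{u, v} A ∧
    (∃ ρ : HilbertRep.{0} A, ρ.Irreducible) ∧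
    ¬ ∃ ρ : HilbertRep.{w} A, ρ.IsoOntoCompacts := by
  obtain ⟨A, iA, ⟨hnt, hN⟩, ⟨H₀, i1, i2, i3, π₀, ⟨a₀, x₀, h₀⟩, hinv₀⟩, hc⟩ :=
    Vale.Agent.P070.naimark.{u, v, w}
  refine ⟨A, iA, ⟨exists_ne 0, fun ρ σ hρ hσ => ?_⟩, ?_, ?_⟩
  · obtain ⟨τ, hτ⟩ := ρ.exists_hom
    obtain ⟨κ, hκ⟩ := σ.exists_hom
    have e1 : ∀ a x, Vale.Agent.P070.act τ a x = ap (ρ.π a) x := fun a x => by
      rw [← hτ]
      rfl
    have e2 : ∀ a x, Vale.Agent.P070.act κ a x = ap (σ.π a) x := fun a x => by
      rw [← hκ]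
      rfl
    have hτi : Vale.Agent.P070.Irreducible (H := ρ.H) τ := by
      obtain ⟨⟨a, x, h1⟩, h2⟩ := hρ
      refine ⟨⟨a, x, ?_⟩, fun E hE => h2 E hE.1 fun a x hx => ?_⟩
      · rw [e1]
        exact h1
      · rw [← e1]
        exact hE.2 a x hx
    have hκi : Vale.Agent.P070.Irreducible (H := σ.H) κ := by
      obtain ⟨⟨a, x, h1⟩, h2⟩ := hσ
      refine ⟨⟨a, x, ?_⟩, fun E hE => h2 E hE.1 fun a x hx => ?_⟩
      · rw [e2]
        exact h1
      · rw [← e2]
        exact hE.2 a x hx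
    obtain ⟨U, hU⟩ := hN ρ.H σ.H τ κ hτi hκi
    refine ⟨U, fun a x => ?_⟩
    have h1 := hU a x
    rw [e1, e2] at h1
    exact h1
  · refine ⟨⟨H₀, fun a => π₀ a, fun a b x => ?_, fun c a x => ?_, fun a b x => ?_,
      fun a x y => ?_⟩, ⟨a₀, x₀, h₀⟩, fun E h1 h2 => hinv₀ E ⟨h1, h2⟩⟩
    · rw [_root_.map_add]
      rfl
    · rw [_root_.map_smul]
      rfl
    · rw [_root_.map_mul]
      rfl
    · rw [StarHomClass.map_star, ContinuousLinearMap.star_eq_adjoint]
      exact (ContinuousLinearMap.adjoint_inner_right (π₀ a) x y).symm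
  · rintro ⟨ρ, h1, h2⟩
    obtain ⟨τ, hτ⟩ := ρ.exists_hom
    have e3 : ∀ a, Vale.Agent.P070.opOf τ a = ρ.π a := hτ
    refine hc ⟨ρ.H, inferInstance, inferInstance, inferInstance, τ, ?_, fun T => ?_⟩
    · intro a b hab
      rw [e3, e3] at hab
      exact h1 hab
    · exact Iff.trans (h2 T) (exists_congr fun a => by rw [e3])

end Vale.Agent.Results.P070.OneIrreducible
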